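import Vale.Agent.P137.Finish
import Vale.Agent.P137.Scale

/-!
Endpoint Sobolev regularity of the uncentred maximal function over Euclidean balls.
-/

namespace Vale.Agent.Results.P137.UncenteredBallGradient

open MeasureTheory Vale.Agent.P137

/-- For every dimension `d ≥ 2` there is a constant `C` such that the uncentred maximal function
of every `f` in `W^{1,1}` is almost everywhere a function with an integrable weak gradient `H`
with `‖H‖₁ ≤ C ‖∇ f‖₁`. -/
theorem result : ∀ d : ℕ, 2 ≤ d → ∃ C : ℝ, ∀ (f : Euc d → ℝ) (G : Euc d → Euc d),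
    Integrable f → Integrable G → HasWeakGradient f G →
      ∃ (M : Euc d → ℝ) (H : Euc d → Euc d), (∀ x, 0 ≤ M x) ∧
        (∀ᵐ x, maxU f x = ENNReal.ofReal (M x)) ∧
        HasWeakGradient M H ∧ Integrable H ∧ ∫ x, ‖H x‖ ≤ C * ∫ x, ‖G x‖ :=
  fun _ hd => maximal_gradient_of_scaleBound (one_le_two.trans hd) (exists_scaleBound hd)

end Vale.Agent.Results.P137.UncenteredBallGradient
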